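import Mathlib

/-! Gadget-independent amplification for S0085 (level-1 Fourier sum versus sqrt(degree)). -/

set_option autoImplicit false

namespace Crest.Agent.R63

open Finset BigOperators

/-- sign of a Boolean -/
def sg (b : Bool) : ℝ := if b then 1 else -1

lemma sg_true : sg true = 1 := by simp [sg]
lemma sg_false : sg false = -1 := by simp [sg]
lemma sg_mul_self (b : Bool) : sg b * sg b = 1 := by cases b <;> simp [sg]
lemma sg_ne_zero (b : Bool) : sg b ≠ 0 := by cases b <;> simp [sg]
lemma sum_sg : ∑ b : Bool, sg b = 0 := by simp [sg]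

section basic
variable {ι : Type*} [Fintype ι] [DecidableEq ι]

/-- unnormalised Fourier–Walsh coefficient -/
def co (f : (ι → Bool) → Bool) (S : Finset ι) : ℝ :=
  ∑ x : ι → Bool, sg (f x) * ∏ i ∈ S, sg (x i)

lemma prod_mem_eq (T : Finset ι) (F : ι → ℝ) :
    ∏ k ∈ T, F k = ∏ k, (if k ∈ T then F k else 1) := by
  rw [Finset.prod_ite_mem]
  simp

/-- character sums -/
lemma sum_chi (T : Finset ι) :
    ∑ z : ι → Bool, ∏ k ∈ T, sg (z k) = if T = ∅ then (2:ℝ) ^ Fintype.card ι else 0 := by
  have h1 : ∀ z : ι → Bool, ∏ k ∈ T, sg (z k) = ∏ k, (if k ∈ T then sg (z k) else 1) :=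
    fun z => prod_mem_eq T _
  simp_rw [h1]
  have h2 : ∑ z : ι → Bool, ∏ k, (if k ∈ T then sg (z k) else 1)
      = ∏ k : ι, ∑ b : Bool, (if k ∈ T then sg b else 1) := by
    rw [Finset.prod_univ_sum, Fintype.piFinset_univ]
  rw [h2]
  split_ifs with hT
  · subst hT
    simp
  · obtain ⟨k, hk⟩ := Finset.nonempty_iff_ne_empty.mpr hT
    apply Finset.prod_eq_zero (Finset.mem_univ k)
    simp [hk, sg]

/-- partial character sums over a level set of `g` -/
lemma sum_level (g : (ι → Bool) → Bool) (T : Finset ι) (b : Bool) :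
    ∑ z : ι → Bool, (if g z = b then ∏ k ∈ T, sg (z k) else 0)
      = ((if T = ∅ then (2:ℝ) ^ Fintype.card ι else 0) + sg b * co g T) / 2 := by
  rw [← sum_chi T, co, Finset.mul_sum, ← Finset.sum_add_distrib, Finset.sum_div]
  apply Finset.sum_congr rfl
  intro z _
  cases hb : b <;> cases hg : g z <;> simp [sg] <;> ring

end basic

section comp
variable {ι κ : Type*} [Fintype ι] [DecidableEq ι] [Fintype κ] [DecidableEq κ]

/-- read-once composition -/
def comp (f : (ι → Bool) → Bool) (g : (κ → Bool) → Bool) : (ι × κ → Bool) → Bool :=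
  fun x => f (fun i => g (fun k => x (i, k)))

/-- fibre of a set of pairs -/
def fib (U : Finset (ι × κ)) (i : ι) : Finset κ := univ.filter (fun k => (i, k) ∈ U)

/-- support of a set of pairs -/
def sup (U : Finset (ι × κ)) : Finset ι := univ.filter (fun i => fib U i ≠ ∅)

lemma prod_pairs (U : Finset (ι × κ)) (F : ι × κ → ℝ) :
    ∏ p ∈ U, F p = ∏ i, ∏ k ∈ fib U i, F (i, k) := by
  rw [prod_mem_eq U F, Fintype.prod_prod_type]
  apply Finset.prod_congr rfl
  intro i _
  rw [fib, Finset.prod_filter]

lemma card_pairs (U : Finset (ι × κ)) : U.card = ∑ i, (fib U i).card := by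
  have h := Finset.card_eq_sum_card_fiberwise (s := U) (t := (univ : Finset ι)) (f := Prod.fst)
    (fun _ _ => Finset.mem_univ _)
  rw [h]
  apply Finset.sum_congr rfl
  intro i _
  apply Finset.card_bij (fun p _ => p.2)
  · intro p hp
    simp only [Finset.mem_filter] at hp
    simp only [fib, Finset.mem_filter, Finset.mem_univ, true_and]
    obtain ⟨h1, h2⟩ := hp
    rw [← h2]; exact h1
  · intro p hp q hq h
    simp only [Finset.mem_filter] at hp hq
    exact Prod.ext (hp.2.trans hq.2.symm) h
  · intro k hk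
    simp only [fib, Finset.mem_filter, Finset.mem_univ, true_and] at hk
    exact ⟨(i, k), by simp [hk], rfl⟩

/-- first form of the composition formula -/
lemma co_comp_aux (f : (ι → Bool) → Bool) (g : (κ → Bool) → Bool) (U : Finset (ι × κ)) :
    co (comp f g) U = ∑ y : ι → Bool, sg (f y) *
      ∏ i, ∑ z : κ → Bool, (if g z = y i then ∏ k ∈ fib U i, sg (z k) else 0) := by
  have e1 : co (comp f g) U = ∑ X : ι → κ → Bool,
      sg (f (fun i => g (X i))) * ∏ i, ∏ k ∈ fib U i, sg (X i k) := by
    rw [co]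
    rw [← Equiv.sum_comp (Equiv.curry ι κ Bool).symm]
    apply Finset.sum_congr rfl
    intro X _
    rw [prod_pairs]
    rfl
  rw [e1]
  have e2 : ∀ y : ι → Bool,
      ∏ i, ∑ z : κ → Bool, (if g z = y i then ∏ k ∈ fib U i, sg (z k) else 0)
      = ∑ X : ι → κ → Bool, ∏ i, (if g (X i) = y i then ∏ k ∈ fib U i, sg (X i k) else 0) := by
    intro y
    rw [Finset.prod_univ_sum, Fintype.piFinset_univ]
  simp_rw [e2, Finset.mul_sum]
  rw [Finset.sum_comm]
  apply Finset.sum_congr rfl
  intro X _
  rw [Finset.sum_eq_single (fun i => g (X i))]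
  · simp
  · intro y _ hy
    have : ∃ i, g (X i) ≠ y i := by
      by_contra h
      push_neg at h
      exact hy (funext fun i => (h i).symm)
    obtain ⟨i, hi⟩ := this
    rw [Finset.prod_eq_zero (Finset.mem_univ i) (by simp [hi]), mul_zero]
  · intro h; exact absurd (Finset.mem_univ _) h

/-- composition formula for a balanced inner function -/
lemma co_comp (f : (ι → Bool) → Bool) (g : (κ → Bool) → Bool) (hg : co g ∅ = 0)
    (U : Finset (ι × κ)) :
    co (comp f g) U = co f (sup U) *
      ∏ i, (if i ∈ sup U then co g (fib U i) / 2 else (2:ℝ) ^ Fintype.card κ / 2) := by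
  rw [co_comp_aux, co, Finset.sum_mul]
  apply Finset.sum_congr rfl
  intro y _
  rw [mul_assoc]
  congr 1
  rw [prod_mem_eq (sup U), ← Finset.prod_mul_distrib]
  apply Finset.prod_congr rfl
  intro i _
  rw [sum_level]
  by_cases hi : fib U i = ∅
  · have : i ∉ sup U := by simp [sup, hi]
    simp [this, hi, hg]
  · have : i ∈ sup U := by simp [sup, hi]
    simp [this, hi]
    ring

/-- normalised coefficient -/
noncomputable def nco {ι : Type*} [Fintype ι] [DecidableEq ι] (f : (ι → Bool) → Bool)
    (S : Finset ι) : ℝ := co f S / (2:ℝ) ^ Fintype.card ι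

/-- normalised composition formula -/
lemma nco_comp (f : (ι → Bool) → Bool) (g : (κ → Bool) → Bool) (hg : co g ∅ = 0)
    (U : Finset (ι × κ)) :
    nco (comp f g) U = nco f (sup U) * ∏ i ∈ sup U, nco g (fib U i) := by
  rw [nco, co_comp f g hg U, nco, prod_mem_eq (sup U)]
  have h : ∀ i, (if i ∈ sup U then co g (fib U i) / 2 else (2:ℝ) ^ Fintype.card κ / 2)
      = ((2:ℝ) ^ Fintype.card κ / 2) * (if i ∈ sup U then nco g (fib U i) else 1) := by
    intro i
    split_ifs
    · rw [nco]; field_simp
    · ring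
  simp_rw [h]
  rw [Finset.prod_mul_distrib, Finset.prod_const, Finset.card_univ, Fintype.card_prod, div_pow,
    ← pow_mul, mul_comm (Fintype.card κ)]
  field_simp

lemma fib_empty (i : ι) : fib (∅ : Finset (ι × κ)) i = ∅ := by
  simp [fib]

lemma sup_empty : sup (∅ : Finset (ι × κ)) = ∅ := by
  simp [sup, fib_empty]

lemma fib_singleton (i : ι) (k : κ) (j : ι) :
    fib ({(i, k)} : Finset (ι × κ)) j = if j = i then {k} else ∅ := by
  ext l
  by_cases h : j = i
  · simp [fib, h]
  · simp [fib, h]

lemma sup_singleton (i : ι) (k : κ) : sup ({(i, k)} : Finset (ι × κ)) = {i} := by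
  ext j
  by_cases h : j = i
  · simp [sup, fib_singleton, h]
  · simp [sup, fib_singleton, h]

end comp

/-- balanced, degree at most `D`, level-one sum `w` -/
structure Good {ι : Type*} [Fintype ι] [DecidableEq ι] (f : (ι → Bool) → Bool) (D : ℕ) (w : ℝ) :
    Prop where
  bal : co f ∅ = 0
  deg : ∀ S : Finset ι, D < S.card → co f S = 0
  lev : ∑ i, nco f {i} = w

section good
variable {ι κ : Type*} [Fintype ι] [DecidableEq ι] [Fintype κ] [DecidableEq κ]

lemma nco_eq_zero_iff (f : (ι → Bool) → Bool) (S : Finset ι) : nco f S = 0 ↔ co f S = 0 := by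
  rw [nco, div_eq_zero_iff]
  constructor
  · rintro (h | h)
    · exact h
    · exact absurd h (by positivity)
  · intro h; exact Or.inl h

theorem good_comp {f : (ι → Bool) → Bool} {g : (κ → Bool) → Bool} {a b : ℕ} {u v : ℝ}
    (hf : Good f a u) (hg : Good g b v) : Good (comp f g) (a * b) (u * v) where
  bal := by
    rw [← nco_eq_zero_iff, nco_comp f g hg.bal, sup_empty, (nco_eq_zero_iff f ∅).2 hf.bal, zero_mul]
  deg := by
    intro U hU
    rw [← nco_eq_zero_iff, nco_comp f g hg.bal]
    by_cases h : a < (sup U).card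
    · rw [(nco_eq_zero_iff f _).2 (hf.deg _ h), zero_mul]
    · push_neg at h
      have : ∃ i ∈ sup U, b < (fib U i).card := by
        by_contra hcon
        push_neg at hcon
        have h1 : U.card = ∑ i ∈ sup U, (fib U i).card := by
          rw [card_pairs]
          symm
          apply Finset.sum_subset (Finset.subset_univ _)
          intro i _ hi
          have : fib U i = ∅ := by
            by_contra hne
            exact hi (by simp [sup, hne])
          rw [this, Finset.card_empty]
        have h2 : ∑ i ∈ sup U, (fib U i).card ≤ (sup U).card * b := by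
          calc ∑ i ∈ sup U, (fib U i).card ≤ ∑ _i ∈ sup U, b := Finset.sum_le_sum hcon
            _ = (sup U).card * b := by rw [Finset.sum_const, smul_eq_mul]
        have h3 : (sup U).card * b ≤ a * b := Nat.mul_le_mul_right _ h
        omega
      obtain ⟨i, hi, hib⟩ := this
      rw [Finset.prod_eq_zero hi ((nco_eq_zero_iff g _).2 (hg.deg _ hib)), mul_zero]
  lev := by
    rw [Fintype.sum_prod_type, ← hf.lev, ← hg.lev, Finset.sum_mul_sum]
    apply Finset.sum_congr rfl
    intro i _
    apply Finset.sum_congr rfl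
    intro k _
    rw [nco_comp f g hg.bal, sup_singleton, Finset.prod_singleton, fib_singleton, if_pos rfl]

/-- transfer along an equivalence of index types -/
def tr (e : ι ≃ κ) (f : (ι → Bool) → Bool) : (κ → Bool) → Bool := fun y => f (fun i => y (e i))

lemma co_tr (e : ι ≃ κ) (f : (ι → Bool) → Bool) (S : Finset κ) :
    co (tr e f) S = co f (S.map e.symm.toEmbedding) := by
  rw [co, co, ← Equiv.sum_comp (Equiv.arrowCongr e (Equiv.refl Bool))]
  apply Finset.sum_congr rfl
  intro x _
  congr 1
  · simp [tr]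
  · rw [Finset.prod_map]
    simp

theorem good_tr (e : ι ≃ κ) {f : (ι → Bool) → Bool} {a : ℕ} {u : ℝ} (hf : Good f a u) :
    Good (tr e f) a u where
  bal := by rw [co_tr, Finset.map_empty]; exact hf.bal
  deg := by
    intro S hS
    rw [co_tr]
    exact hf.deg _ (by rwa [Finset.card_map])
  lev := by
    rw [← hf.lev, ← Equiv.sum_comp e]
    apply Finset.sum_congr rfl
    intro i _
    rw [nco, nco, co_tr, Finset.map_singleton, Fintype.card_congr e]
    simp

end good

theorem good_dict : Good (fun x : Fin 1 → Bool => x 0) 1 1 where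
  bal := by
    have := sum_chi ({0} : Finset (Fin 1))
    simpa [co] using this
  deg := by
    intro S hS
    have := Finset.card_le_univ S
    simp at this
    omega
  lev := by
    have : ∀ x : Fin 1 → Bool, sg (x 0) * sg (x 0) = 1 := fun x => sg_mul_self _
    simp [nco, co, this]

theorem exists_pow {n d : ℕ} {w : ℝ} (G : (Fin n → Bool) → Bool) (hG : Good G d w) :
    ∀ k : ℕ, ∃ m : ℕ, ∃ f : (Fin m → Bool) → Bool, Good f (d ^ k) (w ^ k)
  | 0 => ⟨1, fun x => x 0, by simpa using good_dict⟩
  | k + 1 => by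
    obtain ⟨m, f, hf⟩ := exists_pow G hG k
    exact ⟨m * n, tr finProdFinEquiv (comp f G), by
      rw [pow_succ, pow_succ]
      exact good_tr _ (good_comp hf hG)⟩

/-- A single balanced gadget with (level-one sum)^2 > degree proves S0085. -/
theorem S0085_of_gadget {n d : ℕ} {w : ℝ} (G : (Fin n → Bool) → Bool) (hG : Good G d w)
    (hw : 0 < w) (hdw : (d : ℝ) < w ^ 2) (C : ℝ) (hC : 0 < C) :
    ∃ n : ℕ, ∃ f : (Fin n → Bool) → Bool, ∃ d : ℕ,
      (∃ x y, f x ≠ f y) ∧
      (∀ S : Finset (Fin n), d < S.card →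
        ∑ x : Fin n → Bool, ((if f x then (1 : ℝ) else -1) * ∏ i ∈ S, (if x i then (1 : ℝ) else -1)) = 0) ∧
      C * Real.sqrt d <
        ∑ i : Fin n, (∑ x : Fin n → Bool, ((if f x then (1 : ℝ) else -1) * (if x i then (1 : ℝ) else -1))) / 2 ^ n := by
  set s : ℝ := Real.sqrt d with hs
  have hs0 : 0 ≤ s := Real.sqrt_nonneg _
  have hsw : s < w := (Real.sqrt_lt' hw).2 hdw
  have hr : s / w < 1 := (div_lt_one hw).2 hsw
  obtain ⟨k, hk⟩ := exists_pow_lt_of_lt_one (show 0 < 1 / C by positivity) hr
  obtain ⟨m, f, hf⟩ := exists_pow G hG k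
  refine ⟨m, f, d ^ k, ?_, ?_, ?_⟩
  · by_contra hcon
    push_neg at hcon
    have h1 : co f ∅ = (2:ℝ) ^ m * sg (f (fun _ => true)) := by
      rw [co]
      have : ∀ x : Fin m → Bool, sg (f x) * ∏ i ∈ (∅ : Finset (Fin m)), sg (x i)
          = sg (f (fun _ => true)) := by
        intro x
        rw [hcon x (fun _ => true)]
        simp
      simp_rw [this]
      simp
    rw [hf.bal] at h1
    have h2 : (2:ℝ) ^ m * sg (f (fun _ => true)) ≠ 0 := mul_ne_zero (by positivity) (sg_ne_zero _)
    exact h2 h1.symm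
  · intro S hS
    exact hf.deg S hS
  · have h1 : Real.sqrt ((d ^ k : ℕ) : ℝ) = s ^ k := by
      have : ((d ^ k : ℕ) : ℝ) = (s ^ k) ^ 2 := by
        rw [← pow_mul, mul_comm, pow_mul, hs, Real.sq_sqrt (Nat.cast_nonneg d)]
        push_cast
        ring
      rw [this, Real.sqrt_sq (pow_nonneg hs0 k)]
    have h2 : ∑ i : Fin m, (∑ x : Fin m → Bool,
        ((if f x then (1 : ℝ) else -1) * (if x i then (1 : ℝ) else -1))) / 2 ^ m = w ^ k := by
      rw [← hf.lev]
      apply Finset.sum_congr rfl
      intro i _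
      rw [nco, co]
      simp [sg]
    rw [h1, h2]
    have hwk : 0 < w ^ k := pow_pos hw k
    rw [div_pow, div_lt_div_iff₀ hwk hC] at hk
    linarith

end Crest.Agent.R63
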