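import Crest.Agent.R63.Amp

/-! Kernel-checkable certificate (fast Walsh–Hadamard transform on complete binary tables)
for `Good G d w`, where `G` is given by a truth table packed in one natural number.
The evaluated functions are written with `Nat.rec` so that the kernel unfolds them cheaply. -/

set_option autoImplicit false

namespace Crest.Agent.R63

open Finset BigOperators

/-- complete binary tables of depth `n`; a leaf `(p, q)` stands for the integer `p - q` -/
def Tab : ℕ → Type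
  | 0 => ℕ × ℕ
  | n + 1 => Tab n × Tab n

namespace Tab

noncomputable def add (n : ℕ) : Tab n → Tab n → Tab n :=
  Nat.rec (motive := fun n => Tab n → Tab n → Tab n)
    (fun a b => (Nat.add (show ℕ × ℕ from a).1 (show ℕ × ℕ from b).1,
      Nat.add (show ℕ × ℕ from a).2 (show ℕ × ℕ from b).2))
    (fun _ ih a b => (ih a.1 b.1, ih a.2 b.2)) n

noncomputable def sub (n : ℕ) : Tab n → Tab n → Tab n :=
  Nat.rec (motive := fun n => Tab n → Tab n → Tab n)
    (fun a b => (Nat.add (show ℕ × ℕ from a).1 (show ℕ × ℕ from b).2,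
      Nat.add (show ℕ × ℕ from a).2 (show ℕ × ℕ from b).1))
    (fun _ ih a b => (ih a.1 b.1, ih a.2 b.2)) n

/-- fast Walsh–Hadamard transform -/
noncomputable def wht (n : ℕ) : Tab n → Tab n :=
  Nat.rec (motive := fun n => Tab n → Tab n)
    (fun a => a)
    (fun n ih a => (ih (add n a.1 a.2), ih (sub n a.2 a.1))) n

noncomputable def isZero (n : ℕ) : Tab n → Bool :=
  Nat.rec (motive := fun n => Tab n → Bool)
    (fun a => Nat.beq (show ℕ × ℕ from a).1 (show ℕ × ℕ from a).2)
    (fun _ ih a => ih a.1 && ih a.2) n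

/-- all entries whose address has more than `k` ones vanish -/
noncomputable def chk (n : ℕ) : ℕ → Tab n → Bool :=
  Nat.rec (motive := fun n => ℕ → Tab n → Bool)
    (fun _ _ => true)
    (fun n ih k a => Nat.rec (motive := fun _ => Bool) (ih 0 a.1 && isZero n a.2)
      (fun k' _ => ih (k' + 1) a.1 && ih k' a.2) k) n

/-- entry at the all-false address -/
noncomputable def fst0 (n : ℕ) : Tab n → ℕ × ℕ :=
  Nat.rec (motive := fun n => Tab n → ℕ × ℕ)
    (fun a => a)
    (fun _ ih a => ih a.1) n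

/-- sum of the entries at the addresses with exactly one `true` -/
noncomputable def lev1 (n : ℕ) : Tab n → ℕ × ℕ :=
  Nat.rec (motive := fun n => Tab n → ℕ × ℕ)
    (fun _ => (0, 0))
    (fun n ih a => (Nat.add (fst0 n a.2).1 (ih a.1).1, Nat.add (fst0 n a.2).2 (ih a.1).2)) n

/-- unpack a truth table; the first coordinate is the most significant address bit -/
noncomputable def ofNat (n : ℕ) : ℕ → Tab n :=
  Nat.rec (motive := fun n => ℕ → Tab n)
    (fun k => (cond (Nat.beq (Nat.mod k 2) 1) ((1, 0) : ℕ × ℕ) ((0, 1) : ℕ × ℕ) : ℕ × ℕ))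
    (fun n ih k => (ih (Nat.mod k (Nat.pow 2 (Nat.pow 2 n))),
      ih (Nat.div k (Nat.pow 2 (Nat.pow 2 n))))) n

/-- entry of the table at a Boolean address (first coordinate = outermost split) -/
def ev : (n : ℕ) → Tab n → (Fin n → Bool) → ℤ
  | 0, a, _ => (((show ℕ × ℕ from a).1 : ℕ) : ℤ) - (((show ℕ × ℕ from a).2 : ℕ) : ℤ)
  | n + 1, a, x => if x 0 then ev n a.2 (fun i => x i.succ) else ev n a.1 (fun i => x i.succ)

lemma add_zero (a b : ℕ × ℕ) : add 0 a b = ((a.1 + b.1, a.2 + b.2) : ℕ × ℕ) := rfl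
lemma add_succ (n : ℕ) (a b : Tab (n + 1)) :
    add (n + 1) a b = (add n a.1 b.1, add n a.2 b.2) := rfl
lemma sub_zero (a b : ℕ × ℕ) : sub 0 a b = ((a.1 + b.2, a.2 + b.1) : ℕ × ℕ) := rfl
lemma sub_succ (n : ℕ) (a b : Tab (n + 1)) :
    sub (n + 1) a b = (sub n a.1 b.1, sub n a.2 b.2) := rfl
lemma wht_zero (a : Tab 0) : wht 0 a = a := rfl
lemma wht_succ (n : ℕ) (a : Tab (n + 1)) :
    wht (n + 1) a = (wht n (add n a.1 a.2), wht n (sub n a.2 a.1)) := rfl
lemma isZero_zero (a : ℕ × ℕ) : isZero 0 a = Nat.beq a.1 a.2 := rfl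
lemma isZero_succ (n : ℕ) (a : Tab (n + 1)) :
    isZero (n + 1) a = (isZero n a.1 && isZero n a.2) := rfl
lemma chk_succ_zero (n : ℕ) (a : Tab (n + 1)) :
    chk (n + 1) 0 a = (chk n 0 a.1 && isZero n a.2) := rfl
lemma chk_succ_succ (n k : ℕ) (a : Tab (n + 1)) :
    chk (n + 1) (k + 1) a = (chk n (k + 1) a.1 && chk n k a.2) := rfl
lemma fst0_zero (a : ℕ × ℕ) : fst0 0 a = a := rfl
lemma fst0_succ (n : ℕ) (a : Tab (n + 1)) : fst0 (n + 1) a = fst0 n a.1 := rfl
lemma lev1_zero (a : Tab 0) : lev1 0 a = (0, 0) := rfl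
lemma lev1_succ (n : ℕ) (a : Tab (n + 1)) :
    lev1 (n + 1) a = ((fst0 n a.2).1 + (lev1 n a.1).1, (fst0 n a.2).2 + (lev1 n a.1).2) := rfl
lemma ofNat_zero (k : ℕ) :
    ofNat 0 k = (cond (Nat.beq (Nat.mod k 2) 1) ((1, 0) : ℕ × ℕ) ((0, 1) : ℕ × ℕ) : ℕ × ℕ) := rfl
lemma ofNat_succ (n k : ℕ) :
    ofNat (n + 1) k = (ofNat n (Nat.mod k (Nat.pow 2 (Nat.pow 2 n))),
      ofNat n (Nat.div k (Nat.pow 2 (Nat.pow 2 n)))) := rfl
lemma ev_zero (a : ℕ × ℕ) (x : Fin 0 → Bool) : ev 0 a x = (a.1 : ℤ) - (a.2 : ℤ) := rfl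

lemma ev_add : ∀ (n : ℕ) (a b : Tab n) (x : Fin n → Bool),
    ev n (add n a b) x = ev n a x + ev n b x
  | 0, a, b, x => by
    rw [add_zero, ev_zero, ev_zero, ev_zero]
    push_cast
    ring
  | n + 1, a, b, x => by
    simp only [add_succ, ev]
    split_ifs
    · exact ev_add n _ _ _
    · exact ev_add n _ _ _

lemma ev_sub : ∀ (n : ℕ) (a b : Tab n) (x : Fin n → Bool),
    ev n (sub n a b) x = ev n a x - ev n b x
  | 0, a, b, x => by
    rw [sub_zero, ev_zero, ev_zero, ev_zero]
    push_cast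
    ring
  | n + 1, a, b, x => by
    simp only [sub_succ, ev]
    split_ifs
    · exact ev_sub n _ _ _
    · exact ev_sub n _ _ _

/-- integer sign -/
def sz (b : Bool) : ℤ := if b then 1 else -1

def chi (n : ℕ) (s x : Fin n → Bool) : ℤ := ∏ i, (if s i then sz (x i) else 1)

def cf (n : ℕ) (F : (Fin n → Bool) → ℤ) (s : Fin n → Bool) : ℤ := ∑ x, F x * chi n s x

lemma sum_succ {n : ℕ} (H : (Fin (n + 1) → Bool) → ℤ) :
    ∑ x, H x = ∑ x : Fin n → Bool, H (Fin.cons false x) + ∑ x : Fin n → Bool, H (Fin.cons true x) := by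
  rw [← Equiv.sum_comp (Fin.consEquiv (fun _ : Fin (n + 1) => Bool)), Fintype.sum_prod_type,
    Fintype.sum_bool]
  rw [add_comm]
  rfl

lemma chi_cons (n : ℕ) (s : Fin (n + 1) → Bool) (b : Bool) (x : Fin n → Bool) :
    chi (n + 1) s (Fin.cons b x) = (if s 0 then sz b else 1) * chi n (fun i => s i.succ) x := by
  simp [chi, Fin.prod_univ_succ]

lemma ev_cons (n : ℕ) (a : Tab (n + 1)) (b : Bool) (x : Fin n → Bool) :
    ev (n + 1) a (Fin.cons b x) = if b then ev n a.2 x else ev n a.1 x := by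
  simp [ev]

lemma cf_add (n : ℕ) (F H : (Fin n → Bool) → ℤ) (s : Fin n → Bool) :
    cf n (fun x => F x + H x) s = cf n F s + cf n H s := by
  simp [cf, add_mul, Finset.sum_add_distrib]

lemma cf_sub (n : ℕ) (F H : (Fin n → Bool) → ℤ) (s : Fin n → Bool) :
    cf n (fun x => F x - H x) s = cf n F s - cf n H s := by
  simp [cf, sub_mul, Finset.sum_sub_distrib]

lemma wht_spec : ∀ (n : ℕ) (a : Tab n) (s : Fin n → Bool), cf n (ev n a) s = ev n (wht n a) s
  | 0, a, s => by
    simp [cf, chi, wht_zero]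
    rfl
  | n + 1, a, s => by
    have h1 : cf (n + 1) (ev (n + 1) a) s
        = (if s 0 then cf n (ev n a.2) (fun i => s i.succ) - cf n (ev n a.1) (fun i => s i.succ)
            else cf n (ev n a.1) (fun i => s i.succ) + cf n (ev n a.2) (fun i => s i.succ)) := by
      rw [cf, sum_succ]
      simp only [chi_cons, ev_cons]
      by_cases h : s 0
      · simp [h, cf, sz]
        ring
      · simp [h, cf]
    rw [h1]
    simp only [wht_succ, ev]
    split_ifs
    · rw [← wht_spec n, ← cf_sub]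
      congr 1
      funext x
      rw [ev_sub]
    · rw [← wht_spec n, ← cf_add]
      congr 1
      funext x
      rw [ev_add]

lemma isZero_spec : ∀ (n : ℕ) (a : Tab n), isZero n a = true → ∀ s, ev n a s = 0
  | 0, a, h, s => by
    rw [isZero_zero] at h
    have := Nat.eq_of_beq_eq_true h
    rw [ev_zero, this]
    ring
  | n + 1, a, h, s => by
    simp only [isZero_succ, Bool.and_eq_true] at h
    simp only [ev]
    split_ifs
    · exact isZero_spec n _ h.2 _
    · exact isZero_spec n _ h.1 _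

def cnt (n : ℕ) (s : Fin n → Bool) : ℕ := ∑ i, (if s i then 1 else 0)

lemma cnt_succ (n : ℕ) (s : Fin (n + 1) → Bool) :
    cnt (n + 1) s = (if s 0 then 1 else 0) + cnt n (fun i => s i.succ) := by
  rw [cnt, Fin.sum_univ_succ, cnt]

lemma chk_spec : ∀ (n k : ℕ) (a : Tab n), chk n k a = true → ∀ s, k < cnt n s → ev n a s = 0
  | 0, k, a, _, s, hs => by
    simp [cnt] at hs
  | n + 1, 0, a, h, s, hs => by
    simp only [chk_succ_zero, Bool.and_eq_true] at h
    rw [cnt_succ] at hs
    simp only [ev]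
    split_ifs with h0
    · exact isZero_spec n _ h.2 _
    · simp only [h0] at hs
      exact chk_spec n 0 _ h.1 _ (by simpa using hs)
  | n + 1, k + 1, a, h, s, hs => by
    simp only [chk_succ_succ, Bool.and_eq_true] at h
    rw [cnt_succ] at hs
    simp only [ev]
    split_ifs with h0
    · simp only [h0, if_true] at hs
      exact chk_spec n k _ h.2 _ (by omega)
    · simp only [h0] at hs
      exact chk_spec n (k + 1) _ h.1 _ (by simpa using hs)

lemma fst0_spec : ∀ (n : ℕ) (a : Tab n),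
    ev n a (fun _ => false) = ((fst0 n a).1 : ℤ) - ((fst0 n a).2 : ℤ)
  | 0, _ => rfl
  | n + 1, a => by
    simp only [ev, fst0_succ]
    simpa using fst0_spec n a.1

lemma lev1_spec : ∀ (n : ℕ) (a : Tab n), ∑ i : Fin n, ev n a (fun j => decide (j = i))
    = ((lev1 n a).1 : ℤ) - ((lev1 n a).2 : ℤ)
  | 0, _ => by simp [lev1_zero]
  | n + 1, a => by
    rw [Fin.sum_univ_succ]
    simp only [ev, lev1_succ]
    push_cast
    rw [show ((fst0 n a.2).1 : ℤ) + ((lev1 n a.1).1 : ℤ) - (((fst0 n a.2).2 : ℤ) + ((lev1 n a.1).2 : ℤ))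
      = (((fst0 n a.2).1 : ℤ) - ((fst0 n a.2).2 : ℤ)) + (((lev1 n a.1).1 : ℤ) - ((lev1 n a.1).2 : ℤ)) by ring]
    congr 1
    · simp only [decide_true, if_true]
      have : (fun i : Fin n => decide (i.succ = (0 : Fin (n + 1)))) = fun _ => false := by
        funext i
        simp [Fin.succ_ne_zero]
      rw [this, fst0_spec]
    · rw [← lev1_spec n a.1]
      apply Finset.sum_congr rfl
      intro i _
      have h0 : decide ((0 : Fin (n + 1)) = i.succ) = false := by
        simp [(Fin.succ_ne_zero i).symm]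
      rw [h0]
      simp [Fin.succ_inj]

lemma ev_ofNat : ∀ (n k : ℕ) (x : Fin n → Bool), ev n (ofNat n k) x = 1 ∨ ev n (ofNat n k) x = -1
  | 0, k, x => by
    rw [ofNat_zero]
    cases Nat.beq (Nat.mod k 2) 1
    · right; rfl
    · left; rfl
  | n + 1, k, x => by
    simp only [ev, ofNat_succ]
    split_ifs
    · exact ev_ofNat n _ _
    · exact ev_ofNat n _ _

/-- the Boolean function with packed truth table `k` -/
noncomputable def fn (n k : ℕ) : (Fin n → Bool) → Bool := fun x => decide (ev n (ofNat n k) x = 1)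

lemma sg_fn (n k : ℕ) (x : Fin n → Bool) : sg (fn n k x) = ((ev n (ofNat n k) x : ℤ) : ℝ) := by
  rcases ev_ofNat n k x with h | h
  · simp [fn, h, sg]
  · simp [fn, h, sg]

lemma co_fn (n k : ℕ) (S : Finset (Fin n)) :
    co (fn n k) S = ((ev n (wht n (ofNat n k)) (fun i => decide (i ∈ S)) : ℤ) : ℝ) := by
  rw [← wht_spec, cf, co]
  push_cast
  apply Finset.sum_congr rfl
  intro x _
  rw [sg_fn, prod_mem_eq, chi]
  push_cast
  congr 1
  apply Finset.prod_congr rfl
  intro i _
  by_cases h : i ∈ S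
  · cases hx : x i <;> simp [h, sg, sz]
  · simp [h]

lemma cnt_mem (n : ℕ) (S : Finset (Fin n)) : cnt n (fun i => decide (i ∈ S)) = S.card := by
  simp [cnt]

/-- what has to be known about the transformed table -/
theorem good_of_table (n d k w : ℕ)
    (h0 : (fst0 n (wht n (ofNat n k))).1 = (fst0 n (wht n (ofNat n k))).2)
    (h1 : chk n d (wht n (ofNat n k)) = true)
    (h2 : (lev1 n (wht n (ofNat n k))).1 = (lev1 n (wht n (ofNat n k))).2 + w) :
    Good (fn n k) d ((w : ℝ) / 2 ^ n) := by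
  refine ⟨?_, ?_, ?_⟩
  · rw [co_fn]
    have : (fun i : Fin n => decide (i ∈ (∅ : Finset (Fin n)))) = fun _ => false := by
      funext i; simp
    rw [this, fst0_spec, h0]
    simp
  · intro S hS
    rw [co_fn, chk_spec n d _ h1 _ (by rw [cnt_mem]; exact hS)]
    simp
  · have h3 : (w : ℤ) = ∑ i : Fin n, ev n (wht n (ofNat n k)) (fun j => decide (j = i)) := by
      rw [lev1_spec, h2]
      push_cast
      ring
    have h4 : (w : ℝ) = (((w : ℤ)) : ℝ) := by simp
    rw [h4, h3]
    push_cast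
    rw [Finset.sum_div]
    apply Finset.sum_congr rfl
    intro i _
    rw [nco, co_fn]
    simp [Finset.mem_singleton]

/-- the complete check in one Boolean -/
noncomputable def chkAll (n d k w : ℕ) : Bool :=
  Nat.beq (fst0 n (wht n (ofNat n k))).1 (fst0 n (wht n (ofNat n k))).2 &&
    chk n d (wht n (ofNat n k)) &&
    Nat.beq (lev1 n (wht n (ofNat n k))).1 (Nat.add (lev1 n (wht n (ofNat n k))).2 w)

theorem good_of_chkAll (n d k w : ℕ) (h : chkAll n d k w = true) :
    Good (fn n k) d ((w : ℝ) / 2 ^ n) := by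
  simp only [chkAll, Bool.and_eq_true] at h
  obtain ⟨⟨h0, h1⟩, h2⟩ := h
  exact good_of_table n d k w (Nat.eq_of_beq_eq_true h0) h1 (Nat.eq_of_beq_eq_true h2)

end Tab

end Crest.Agent.R63
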