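import Crest.Agent.R63.Check

/-! A much cheaper kernel check: whole tables are packed into single natural numbers (base `b`),
the butterflies are big-number additions, and a branch whose budget of `true`s is used up is
closed by ONE comparison of packed numbers. -/

set_option autoImplicit false

namespace Crest.Agent.R63

namespace Tab

/-- packing of the first components in base `b` -/
noncomputable def pk1 (b m : ℕ) : Tab m → ℕ :=
  Nat.rec (motive := fun m => Tab m → ℕ)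
    (fun a => (show ℕ × ℕ from a).1)
    (fun m ih a => Nat.add (ih a.1) (Nat.mul (ih a.2) (Nat.pow b (Nat.pow 2 m)))) m

/-- packing of the second components in base `b` -/
noncomputable def pk2 (b m : ℕ) : Tab m → ℕ :=
  Nat.rec (motive := fun m => Tab m → ℕ)
    (fun a => (show ℕ × ℕ from a).2)
    (fun m ih a => Nat.add (ih a.1) (Nat.mul (ih a.2) (Nat.pow b (Nat.pow 2 m)))) m

lemma pk1_zero (b : ℕ) (a : ℕ × ℕ) : pk1 b 0 a = a.1 := rfl
lemma pk2_zero (b : ℕ) (a : ℕ × ℕ) : pk2 b 0 a = a.2 := rfl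
lemma pk1_succ (b m : ℕ) (a : Tab (m + 1)) :
    pk1 b (m + 1) a = pk1 b m a.1 + pk1 b m a.2 * b ^ (2 ^ m) := rfl
lemma pk2_succ (b m : ℕ) (a : Tab (m + 1)) :
    pk2 b (m + 1) a = pk2 b m a.1 + pk2 b m a.2 * b ^ (2 ^ m) := rfl

/-- all components are at most `c` -/
def Bd : (m : ℕ) → ℕ → Tab m → Prop
  | 0, c, a => (show ℕ × ℕ from a).1 ≤ c ∧ (show ℕ × ℕ from a).2 ≤ c
  | m + 1, c, a => Bd m c a.1 ∧ Bd m c a.2

lemma pk1_add (b : ℕ) : ∀ (m : ℕ) (a a' : Tab m),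
    pk1 b m (add m a a') = pk1 b m a + pk1 b m a'
  | 0, _, _ => rfl
  | m + 1, a, a' => by
    simp only [add_succ, pk1_succ]
    rw [pk1_add b m, pk1_add b m]
    ring

lemma pk2_add (b : ℕ) : ∀ (m : ℕ) (a a' : Tab m),
    pk2 b m (add m a a') = pk2 b m a + pk2 b m a'
  | 0, _, _ => rfl
  | m + 1, a, a' => by
    simp only [add_succ, pk2_succ]
    rw [pk2_add b m, pk2_add b m]
    ring

lemma pk1_sub (b : ℕ) : ∀ (m : ℕ) (a a' : Tab m),
    pk1 b m (sub m a a') = pk1 b m a + pk2 b m a'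
  | 0, _, _ => rfl
  | m + 1, a, a' => by
    simp only [sub_succ, pk1_succ, pk2_succ]
    rw [pk1_sub b m, pk1_sub b m]
    ring

lemma pk2_sub (b : ℕ) : ∀ (m : ℕ) (a a' : Tab m),
    pk2 b m (sub m a a') = pk2 b m a + pk1 b m a'
  | 0, _, _ => rfl
  | m + 1, a, a' => by
    simp only [sub_succ, pk1_succ, pk2_succ]
    rw [pk2_sub b m, pk2_sub b m]
    ring

lemma aux_lt {x y M : ℕ} (hx : x < M) (hy : y < M) : x + y * M < M * M := by
  have h : (y + 1) * M ≤ M * M := Nat.mul_le_mul_right M hy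
  calc x + y * M < M + y * M := by omega
    _ = (y + 1) * M := by ring
    _ ≤ M * M := h

lemma split_mod {x y M : ℕ} (hx : x < M) : (x + y * M) % M = x := by
  rw [Nat.add_mul_mod_self_right, Nat.mod_eq_of_lt hx]

lemma split_div {x y M : ℕ} (hx : x < M) : (x + y * M) / M = y := by
  have hM : 0 < M := lt_of_le_of_lt (Nat.zero_le _) hx
  rw [Nat.add_mul_div_right _ _ hM, Nat.div_eq_of_lt hx, Nat.zero_add]

lemma pow_two_succ (b m : ℕ) : b ^ (2 ^ (m + 1)) = b ^ (2 ^ m) * b ^ (2 ^ m) := by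
  rw [pow_succ, pow_mul, sq]

lemma pk_lt (b c : ℕ) (hc : c < b) : ∀ (m : ℕ) (a : Tab m), Bd m c a →
    pk1 b m a < b ^ (2 ^ m) ∧ pk2 b m a < b ^ (2 ^ m)
  | 0, a, h => by
    have h1 : (show ℕ × ℕ from a).1 ≤ c := h.1
    have h2 : (show ℕ × ℕ from a).2 ≤ c := h.2
    simp only [pow_zero, pow_one]
    exact ⟨lt_of_le_of_lt h1 hc, lt_of_le_of_lt h2 hc⟩
  | m + 1, a, h => by
    obtain ⟨h1, h2⟩ := pk_lt b c hc m a.1 h.1
    obtain ⟨h3, h4⟩ := pk_lt b c hc m a.2 h.2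
    rw [pk1_succ, pk2_succ, pow_two_succ]
    exact ⟨aux_lt h1 h3, aux_lt h2 h4⟩

lemma zero_of_pk_eq (b c : ℕ) (hc : c < b) : ∀ (m : ℕ) (a : Tab m), Bd m c a →
    pk1 b m a = pk2 b m a → ∀ x, ev m a x = 0
  | 0, a, _, h, x => by
    have h' : (show ℕ × ℕ from a).1 = (show ℕ × ℕ from a).2 := h
    rw [ev_zero, h']
    ring
  | m + 1, a, hB, h, x => by
    obtain ⟨h1, h2⟩ := pk_lt b c hc m a.1 hB.1
    rw [pk1_succ, pk2_succ] at h
    have e1 : pk1 b m a.1 = pk2 b m a.1 := by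
      have := congrArg (· % b ^ (2 ^ m)) h
      simpa only [split_mod h1, split_mod h2] using this
    have e2 : pk1 b m a.2 = pk2 b m a.2 := by
      have := congrArg (· / b ^ (2 ^ m)) h
      simpa only [split_div h1, split_div h2] using this
    simp only [ev]
    split_ifs
    · exact zero_of_pk_eq b c hc m a.2 hB.2 e2 _
    · exact zero_of_pk_eq b c hc m a.1 hB.1 e1 _

lemma wht_zero_of (m : ℕ) (a : Tab m) (h : ∀ x, ev m a x = 0) (s : Fin m → Bool) :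
    ev m (wht m a) s = 0 := by
  rw [← wht_spec, cf]
  simp [h]

lemma Bd_add : ∀ (m c c' : ℕ) (a a' : Tab m), Bd m c a → Bd m c' a' → Bd m (c + c') (add m a a')
  | 0, _, _, _, _, h, h' => ⟨Nat.add_le_add h.1 h'.1, Nat.add_le_add h.2 h'.2⟩
  | m + 1, c, c', _, _, h, h' => ⟨Bd_add m c c' _ _ h.1 h'.1, Bd_add m c c' _ _ h.2 h'.2⟩

lemma Bd_sub : ∀ (m c c' : ℕ) (a a' : Tab m), Bd m c a → Bd m c' a' → Bd m (c + c') (sub m a a')
  | 0, _, _, _, _, h, h' => ⟨Nat.add_le_add h.1 h'.2, Nat.add_le_add h.2 h'.1⟩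
  | m + 1, c, c', _, _, h, h' => ⟨Bd_sub m c c' _ _ h.1 h'.1, Bd_sub m c c' _ _ h.2 h'.2⟩

lemma Bd_ofNat : ∀ (n k : ℕ), Bd n 1 (ofNat n k)
  | 0, k => by
    rw [ofNat_zero]
    cases Nat.beq (Nat.mod k 2) 1
    · exact ⟨Nat.zero_le _, le_refl _⟩
    · exact ⟨le_refl _, Nat.zero_le _⟩
  | n + 1, k => ⟨Bd_ofNat n _, Bd_ofNat n _⟩

/-- packed degree check: arguments budget, packed first components, packed second components -/
noncomputable def chkP (b m : ℕ) : ℕ → ℕ → ℕ → Bool :=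
  Nat.rec (motive := fun _ => ℕ → ℕ → ℕ → Bool)
    (fun _ _ _ => true)
    (fun m ih k P Q =>
      ih k (Nat.add (Nat.mod P (Nat.pow b (Nat.pow 2 m))) (Nat.div P (Nat.pow b (Nat.pow 2 m))))
        (Nat.add (Nat.mod Q (Nat.pow b (Nat.pow 2 m))) (Nat.div Q (Nat.pow b (Nat.pow 2 m)))) &&
      Nat.rec (motive := fun _ => Bool)
        (Nat.beq
          (Nat.add (Nat.div P (Nat.pow b (Nat.pow 2 m))) (Nat.mod Q (Nat.pow b (Nat.pow 2 m))))
          (Nat.add (Nat.div Q (Nat.pow b (Nat.pow 2 m))) (Nat.mod P (Nat.pow b (Nat.pow 2 m)))))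
        (fun k' _ => ih k'
          (Nat.add (Nat.div P (Nat.pow b (Nat.pow 2 m))) (Nat.mod Q (Nat.pow b (Nat.pow 2 m))))
          (Nat.add (Nat.div Q (Nat.pow b (Nat.pow 2 m))) (Nat.mod P (Nat.pow b (Nat.pow 2 m))))) k) m

lemma chkP_succ_zero (b m P Q : ℕ) : chkP b (m + 1) 0 P Q =
    (chkP b m 0 (P % b ^ (2 ^ m) + P / b ^ (2 ^ m)) (Q % b ^ (2 ^ m) + Q / b ^ (2 ^ m)) &&
      Nat.beq (P / b ^ (2 ^ m) + Q % b ^ (2 ^ m)) (Q / b ^ (2 ^ m) + P % b ^ (2 ^ m))) := rfl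

lemma chkP_succ_succ (b m k P Q : ℕ) : chkP b (m + 1) (k + 1) P Q =
    (chkP b m (k + 1) (P % b ^ (2 ^ m) + P / b ^ (2 ^ m)) (Q % b ^ (2 ^ m) + Q / b ^ (2 ^ m)) &&
      chkP b m k (P / b ^ (2 ^ m) + Q % b ^ (2 ^ m)) (Q / b ^ (2 ^ m) + P % b ^ (2 ^ m))) := rfl

/-- the four halves of a packed table -/
lemma halves (b c m : ℕ) (hc : c < b) (a : Tab (m + 1)) (hB : Bd (m + 1) c a) :
    pk1 b (m + 1) a % b ^ (2 ^ m) = pk1 b m a.1 ∧ pk1 b (m + 1) a / b ^ (2 ^ m) = pk1 b m a.2 ∧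
    pk2 b (m + 1) a % b ^ (2 ^ m) = pk2 b m a.1 ∧ pk2 b (m + 1) a / b ^ (2 ^ m) = pk2 b m a.2 := by
  obtain ⟨l1, l2⟩ := pk_lt b c hc m a.1 hB.1
  rw [pk1_succ, pk2_succ]
  exact ⟨split_mod l1, split_div l1, split_mod l2, split_div l2⟩

lemma bound_step {b c m : ℕ} (hc : c * 2 ^ (m + 1) < b) : c < b ∧ (c + c) * 2 ^ m < b ∧ c + c < b := by
  have h1 : c * 2 ^ (m + 1) = (c + c) * 2 ^ m := by rw [pow_succ]; ring
  have h2 : 1 ≤ 2 ^ m := Nat.one_le_two_pow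
  have h3 : c + c ≤ (c + c) * 2 ^ m := Nat.le_mul_of_pos_right _ h2
  refine ⟨by omega, by omega, by omega⟩

theorem chkP_spec (b : ℕ) : ∀ (m k c : ℕ) (a : Tab m), Bd m c a → c * 2 ^ m < b →
    chkP b m k (pk1 b m a) (pk2 b m a) = true → ∀ s, k < cnt m s → ev m (wht m a) s = 0
  | 0, k, c, a, _, _, _, s, hs => by
    simp [cnt] at hs
  | m + 1, 0, c, a, hB, hc, h, s, hs => by
    obtain ⟨hcb, hc2, hcc⟩ := bound_step hc
    obtain ⟨e1, e2, e3, e4⟩ := halves b c m hcb a hB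
    have hA := Bd_add m c c a.1 a.2 hB.1 hB.2
    have hS := Bd_sub m c c a.2 a.1 hB.2 hB.1
    rw [chkP_succ_zero, e1, e2, e3, e4, Bool.and_eq_true] at h
    rw [cnt_succ] at hs
    rw [wht_succ]
    simp only [ev]
    split_ifs with h0
    · apply wht_zero_of
      apply zero_of_pk_eq b (c + c) hcc m _ hS
      rw [pk1_sub, pk2_sub]
      exact Nat.eq_of_beq_eq_true h.2
    · simp only [h0] at hs
      exact chkP_spec b m 0 (c + c) _ hA hc2 (by rw [pk1_add, pk2_add]; exact h.1) _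
        (by simpa using hs)
  | m + 1, k + 1, c, a, hB, hc, h, s, hs => by
    obtain ⟨hcb, hc2, hcc⟩ := bound_step hc
    obtain ⟨e1, e2, e3, e4⟩ := halves b c m hcb a hB
    have hA := Bd_add m c c a.1 a.2 hB.1 hB.2
    have hS := Bd_sub m c c a.2 a.1 hB.2 hB.1
    rw [chkP_succ_succ, e1, e2, e3, e4, Bool.and_eq_true] at h
    rw [cnt_succ] at hs
    rw [wht_succ]
    simp only [ev]
    split_ifs with h0
    · simp only [h0, if_true] at hs
      exact chkP_spec b m k (c + c) _ hS hc2 (by rw [pk1_sub, pk2_sub]; exact h.2) _ (by omega)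
    · simp only [h0] at hs
      exact chkP_spec b m (k + 1) (c + c) _ hA hc2 (by rw [pk1_add, pk2_add]; exact h.1) _
        (by simpa using hs)

/-- packed version of `fst0 ∘ wht` -/
noncomputable def fstP (b m : ℕ) : ℕ → ℕ → ℕ × ℕ :=
  Nat.rec (motive := fun _ => ℕ → ℕ → ℕ × ℕ)
    (fun P Q => (P, Q))
    (fun m ih P Q =>
      ih (Nat.add (Nat.mod P (Nat.pow b (Nat.pow 2 m))) (Nat.div P (Nat.pow b (Nat.pow 2 m))))
        (Nat.add (Nat.mod Q (Nat.pow b (Nat.pow 2 m))) (Nat.div Q (Nat.pow b (Nat.pow 2 m))))) m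

lemma fstP_succ (b m P Q : ℕ) : fstP b (m + 1) P Q =
    fstP b m (P % b ^ (2 ^ m) + P / b ^ (2 ^ m)) (Q % b ^ (2 ^ m) + Q / b ^ (2 ^ m)) := rfl

theorem fstP_spec (b : ℕ) : ∀ (m c : ℕ) (a : Tab m), Bd m c a → c * 2 ^ m < b →
    fst0 m (wht m a) = fstP b m (pk1 b m a) (pk2 b m a)
  | 0, _, _, _, _ => rfl
  | m + 1, c, a, hB, hc => by
    obtain ⟨hcb, hc2, hcc⟩ := bound_step hc
    obtain ⟨e1, e2, e3, e4⟩ := halves b c m hcb a hB
    have hA := Bd_add m c c a.1 a.2 hB.1 hB.2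
    rw [fstP_succ, e1, e2, e3, e4, wht_succ, fst0_succ]
    simp only []
    rw [fstP_spec b m (c + c) _ hA hc2, pk1_add, pk2_add]

/-- packed version of `lev1 ∘ wht` -/
noncomputable def lev1P (b m : ℕ) : ℕ → ℕ → ℕ × ℕ :=
  Nat.rec (motive := fun _ => ℕ → ℕ → ℕ × ℕ)
    (fun _ _ => (0, 0))
    (fun m ih P Q =>
      (Nat.add (fstP b m
          (Nat.add (Nat.div P (Nat.pow b (Nat.pow 2 m))) (Nat.mod Q (Nat.pow b (Nat.pow 2 m))))
          (Nat.add (Nat.div Q (Nat.pow b (Nat.pow 2 m))) (Nat.mod P (Nat.pow b (Nat.pow 2 m))))).1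
        (ih (Nat.add (Nat.mod P (Nat.pow b (Nat.pow 2 m))) (Nat.div P (Nat.pow b (Nat.pow 2 m))))
          (Nat.add (Nat.mod Q (Nat.pow b (Nat.pow 2 m))) (Nat.div Q (Nat.pow b (Nat.pow 2 m))))).1,
       Nat.add (fstP b m
          (Nat.add (Nat.div P (Nat.pow b (Nat.pow 2 m))) (Nat.mod Q (Nat.pow b (Nat.pow 2 m))))
          (Nat.add (Nat.div Q (Nat.pow b (Nat.pow 2 m))) (Nat.mod P (Nat.pow b (Nat.pow 2 m))))).2
        (ih (Nat.add (Nat.mod P (Nat.pow b (Nat.pow 2 m))) (Nat.div P (Nat.pow b (Nat.pow 2 m))))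
          (Nat.add (Nat.mod Q (Nat.pow b (Nat.pow 2 m))) (Nat.div Q (Nat.pow b (Nat.pow 2 m))))).2)) m

lemma lev1P_succ (b m P Q : ℕ) : lev1P b (m + 1) P Q =
    ((fstP b m (P / b ^ (2 ^ m) + Q % b ^ (2 ^ m)) (Q / b ^ (2 ^ m) + P % b ^ (2 ^ m))).1 +
      (lev1P b m (P % b ^ (2 ^ m) + P / b ^ (2 ^ m)) (Q % b ^ (2 ^ m) + Q / b ^ (2 ^ m))).1,
     (fstP b m (P / b ^ (2 ^ m) + Q % b ^ (2 ^ m)) (Q / b ^ (2 ^ m) + P % b ^ (2 ^ m))).2 +
      (lev1P b m (P % b ^ (2 ^ m) + P / b ^ (2 ^ m)) (Q % b ^ (2 ^ m) + Q / b ^ (2 ^ m))).2) := rfl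

theorem lev1P_spec (b : ℕ) : ∀ (m c : ℕ) (a : Tab m), Bd m c a → c * 2 ^ m < b →
    lev1 m (wht m a) = lev1P b m (pk1 b m a) (pk2 b m a)
  | 0, _, _, _, _ => rfl
  | m + 1, c, a, hB, hc => by
    obtain ⟨hcb, hc2, hcc⟩ := bound_step hc
    obtain ⟨e1, e2, e3, e4⟩ := halves b c m hcb a hB
    have hA := Bd_add m c c a.1 a.2 hB.1 hB.2
    have hS := Bd_sub m c c a.2 a.1 hB.2 hB.1
    rw [lev1P_succ, e1, e2, e3, e4, wht_succ, lev1_succ]
    simp only []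
    rw [lev1P_spec b m (c + c) _ hA hc2, fstP_spec b m (c + c) _ hS hc2, pk1_add, pk2_add,
      pk1_sub, pk2_sub]

/-- `good_of_table` with the degree condition in semantic form -/
theorem good_of_table' (n d k w : ℕ)
    (h0 : (fst0 n (wht n (ofNat n k))).1 = (fst0 n (wht n (ofNat n k))).2)
    (h1 : ∀ s, d < cnt n s → ev n (wht n (ofNat n k)) s = 0)
    (h2 : (lev1 n (wht n (ofNat n k))).1 = (lev1 n (wht n (ofNat n k))).2 + w) :
    Good (fn n k) d ((w : ℝ) / 2 ^ n) := by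
  refine ⟨?_, ?_, ?_⟩
  · rw [co_fn]
    have : (fun i : Fin n => decide (i ∈ (∅ : Finset (Fin n)))) = fun _ => false := by
      funext i; simp
    rw [this, fst0_spec, h0]
    simp
  · intro S hS
    rw [co_fn, h1 _ (by rw [cnt_mem]; exact hS)]
    simp
  · have h3 : (w : ℤ) = ∑ i : Fin n, ev n (wht n (ofNat n k)) (fun j => decide (j = i)) := by
      rw [lev1_spec, h2]
      push_cast
      ring
    have h4 : (w : ℝ) = (((w : ℤ)) : ℝ) := by simp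
    rw [h4, h3]
    push_cast
    rw [Finset.sum_div]
    apply Finset.sum_congr rfl
    intro i _
    rw [nco, co_fn]
    simp [Finset.mem_singleton]

/-- the complete packed check -/
noncomputable def chkAllP (b n d k w : ℕ) : Bool :=
  Nat.blt (Nat.pow 2 n) b &&
  Nat.beq (fstP b n (pk1 b n (ofNat n k)) (pk2 b n (ofNat n k))).1
    (fstP b n (pk1 b n (ofNat n k)) (pk2 b n (ofNat n k))).2 &&
  chkP b n d (pk1 b n (ofNat n k)) (pk2 b n (ofNat n k)) &&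
  Nat.beq (lev1P b n (pk1 b n (ofNat n k)) (pk2 b n (ofNat n k))).1
    (Nat.add (lev1P b n (pk1 b n (ofNat n k)) (pk2 b n (ofNat n k))).2 w)

theorem good_of_chkAllP (b n d k w : ℕ) (h : chkAllP b n d k w = true) :
    Good (fn n k) d ((w : ℝ) / 2 ^ n) := by
  simp only [chkAllP, Bool.and_eq_true] at h
  obtain ⟨⟨⟨hb, h0⟩, h1⟩, h2⟩ := h
  have hb' : 1 * 2 ^ n < b := by
    have : Nat.pow 2 n < b := by
      simpa [Nat.blt] using hb
    simpa using this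
  have hB := Bd_ofNat n k
  apply good_of_table'
  · rw [fstP_spec b n 1 _ hB hb']
    exact Nat.eq_of_beq_eq_true h0
  · exact chkP_spec b n d 1 _ hB hb' h1
  · rw [lev1P_spec b n 1 _ hB hb']
    exact Nat.eq_of_beq_eq_true h2

end Tab

end Crest.Agent.R63
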