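import Crest.Agent.R63.Check

/-! Four-way split of the table check of `Check.lean` (for 17 or 18 variables), so that the four
kernel computations can live in four different files. -/

set_option autoImplicit false

namespace Crest.Agent.R63

namespace Tab

/-- sum and difference of the two halves of the unpacked table -/
noncomputable def h0 (m k : ℕ) : Tab (m + 1) :=
  add (m + 1) (ofNat (m + 2) k).1 (ofNat (m + 2) k).2
noncomputable def h1 (m k : ℕ) : Tab (m + 1) :=
  sub (m + 1) (ofNat (m + 2) k).2 (ofNat (m + 2) k).1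

noncomputable def q00 (m k : ℕ) : Tab m := add m (h0 m k).1 (h0 m k).2
noncomputable def q01 (m k : ℕ) : Tab m := sub m (h0 m k).2 (h0 m k).1
noncomputable def q10 (m k : ℕ) : Tab m := add m (h1 m k).1 (h1 m k).2
noncomputable def q11 (m k : ℕ) : Tab m := sub m (h1 m k).2 (h1 m k).1

lemma wht_split (m k : ℕ) : wht (m + 2) (ofNat (m + 2) k)
    = ((wht m (q00 m k), wht m (q01 m k)), (wht m (q10 m k), wht m (q11 m k))) := rfl

/-- degree check, first entry and level-one sum of one quarter -/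
noncomputable def partA (m d : ℕ) (B : Tab m) (f1 f2 l1 l2 : ℕ) : Bool :=
  chk m d (wht m B) && Nat.beq (fst0 m (wht m B)).1 f1 && Nat.beq (fst0 m (wht m B)).2 f2 &&
    Nat.beq (lev1 m (wht m B)).1 l1 && Nat.beq (lev1 m (wht m B)).2 l2

/-- degree check and first entry of one quarter -/
noncomputable def partB (m d : ℕ) (B : Tab m) (f1 f2 : ℕ) : Bool :=
  chk m d (wht m B) && Nat.beq (fst0 m (wht m B)).1 f1 && Nat.beq (fst0 m (wht m B)).2 f2

theorem good_of_parts (m d k w a1 a2 l1 l2 b1 b2 c1 c2 : ℕ)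
    (p00 : partA m (d + 2) (q00 m k) a1 a2 l1 l2 = true)
    (p01 : partB m (d + 1) (q01 m k) b1 b2 = true)
    (p10 : partB m (d + 1) (q10 m k) c1 c2 = true)
    (p11 : chk m d (wht m (q11 m k)) = true)
    (hbal : a1 = a2)
    (hlev : c1 + (b1 + l1) = c2 + (b2 + l2) + w) :
    Good (fn (m + 2) k) (d + 2) ((w : ℝ) / 2 ^ (m + 2)) := by
  simp only [partA, partB, Bool.and_eq_true] at p00 p01 p10
  obtain ⟨⟨⟨⟨x1, x2⟩, x3⟩, x4⟩, x5⟩ := p00
  obtain ⟨⟨y1, y2⟩, y3⟩ := p01
  obtain ⟨⟨z1, z2⟩, z3⟩ := p10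
  have x2 := Nat.eq_of_beq_eq_true x2
  have x3 := Nat.eq_of_beq_eq_true x3
  have x4 := Nat.eq_of_beq_eq_true x4
  have x5 := Nat.eq_of_beq_eq_true x5
  have y2 := Nat.eq_of_beq_eq_true y2
  have y3 := Nat.eq_of_beq_eq_true y3
  have z2 := Nat.eq_of_beq_eq_true z2
  have z3 := Nat.eq_of_beq_eq_true z3
  apply good_of_table
  · rw [wht_split, fst0_succ, fst0_succ]
    show (fst0 m (wht m (q00 m k))).1 = (fst0 m (wht m (q00 m k))).2
    rw [x2, x3, hbal]
  · rw [wht_split, chk_succ_succ, chk_succ_succ, chk_succ_succ]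
    show (chk m (d + 1 + 1) (wht m (q00 m k)) && chk m (d + 1) (wht m (q01 m k)) &&
      (chk m (d + 1) (wht m (q10 m k)) && chk m d (wht m (q11 m k)))) = true
    rw [x1, y1, z1, p11]
    rfl
  · rw [wht_split, lev1_succ, lev1_succ, fst0_succ]
    show (fst0 m (wht m (q10 m k))).1 + ((fst0 m (wht m (q01 m k))).1 + (lev1 m (wht m (q00 m k))).1)
      = (fst0 m (wht m (q10 m k))).2 + ((fst0 m (wht m (q01 m k))).2 + (lev1 m (wht m (q00 m k))).2) + w
    rw [x4, x5, y2, y3, z2, z3, hlev]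

end Tab

end Crest.Agent.R63
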